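import Mathlib

/-!
A finite matrix factorisation in any algebra generated by two Cuntz isometries.

For words of length in a window `[m, m + L)` the isometries `S (w ++ marker)` cut a polynomial in
`S, S*` down to a scalar matrix, and the rows `S w / √L` send it back to within a factor
`1 - k / L` of itself.
-/

noncomputable section

open Finset
open scoped Topology

namespace Vale.Agent.P083.O2

/-- Two isometries with complementary ranges. -/
structure CuntzPair {B : Type*} [CStarAlgebra B] (s : Fin 2 → B) : Prop where
  isom : ∀ i, star (s i) * s i = 1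
  total : s 0 * star (s 0) + s 1 * star (s 1) = 1

variable {B : Type*} [CStarAlgebra B] {s : Fin 2 → B}

/-- The product of the generators along a word. -/
def wordProd (s : Fin 2 → B) (w : List (Fin 2)) : B := (w.map s).prod

@[simp] lemma wordProd_nil : wordProd s [] = 1 := rfl

@[simp] lemma wordProd_cons (i : Fin 2) (w : List (Fin 2)) :
    wordProd s (i :: w) = s i * wordProd s w := by simp [wordProd]

lemma wordProd_append (u w : List (Fin 2)) :
    wordProd s (u ++ w) = wordProd s u * wordProd s w := by simp [wordProd]

variable (h : CuntzPair s)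
include h

lemma CuntzPair.orth {i j : Fin 2} (hij : i ≠ j) : star (s i) * s j = 0 := by
  -- `s i* (s₀ s₀* + s₁ s₁*) s i = 1` forces `(s j* s i)* (s j* s i) = 0`
  have key : star (star (s j) * s i) * (star (s j) * s i) = 0 := by
    have h1 : star (s i) * (s i * star (s i) + s j * star (s j)) * s i = 1 := by
      have : s i * star (s i) + s j * star (s j) = 1 := by
        fin_cases i <;> fin_cases j <;> first
          | exact absurd rfl hij
          | exact h.total
          | exact (add_comm _ _).trans h.total
      rw [this, mul_one, h.isom]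
    rw [star_mul, star_star]
    have h2 : star (s i) * (s i * star (s i) + s j * star (s j)) * s i
        = (star (s i) * s i) * (star (s i) * s i) + star (s i) * s j * (star (s j) * s i) := by
      noncomm_ring
    rw [h2, h.isom, one_mul, add_eq_left] at h1
    exact h1
  rw [CStarRing.star_mul_self_eq_zero_iff] at key
  simpa using congrArg star key

lemma CuntzPair.star_mul_gen (i j : Fin 2) : star (s i) * s j = if i = j then 1 else 0 := by
  split_ifs with hij
  · subst hij; exact h.isom i
  · exact h.orth hij

lemma CuntzPair.star_wordProd_mul_self (w : List (Fin 2)) :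
    star (wordProd s w) * wordProd s w = 1 := by
  induction w with
  | nil => simp
  | cons i w ih =>
    rw [wordProd_cons, star_mul, mul_assoc, ← mul_assoc (star (s i)), h.isom, one_mul, ih]

lemma CuntzPair.star_append_mul (u v : List (Fin 2)) :
    star (wordProd s u) * wordProd s (u ++ v) = wordProd s v := by
  rw [wordProd_append, ← mul_assoc, h.star_wordProd_mul_self, one_mul]

lemma CuntzPair.star_mul_eq_zero {u v : List (Fin 2)} (h1 : ¬u <+: v) (h2 : ¬v <+: u) :
    star (wordProd s u) * wordProd s v = 0 := by
  induction u generalizing v with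
  | nil => exact absurd List.nil_prefix h1
  | cons i u ih =>
    cases v with
    | nil => exact absurd List.nil_prefix h2
    | cons j v =>
      rw [wordProd_cons, wordProd_cons, star_mul, mul_assoc, ← mul_assoc (star (s i)),
        h.star_mul_gen]
      split_ifs with hij
      · subst hij
        rw [one_mul]
        exact ih (fun hp => h1 (List.cons_prefix_cons.2 ⟨rfl, hp⟩))
          (fun hp => h2 (List.cons_prefix_cons.2 ⟨rfl, hp⟩))
      · simp

lemma CuntzPair.norm_wordProd_le (w : List (Fin 2)) : ‖wordProd s w‖ ≤ 1 := by
  have := CStarRing.norm_star_mul_self (x := wordProd s w)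
  rw [h.star_wordProd_mul_self] at this
  rcases subsingleton_or_nontrivial B with hB | hB
  · rw [Subsingleton.elim (wordProd s w) 0, norm_zero]; exact zero_le_one
  · rw [norm_one] at this
    nlinarith [norm_nonneg (wordProd s w)]

omit h

/-- All words of a given length. -/
def words : ℕ → Finset (List (Fin 2))
  | 0 => {[]}
  | n + 1 => ((univ : Finset (Fin 2)) ×ˢ words n).image fun q => q.1 :: q.2

lemma mem_words {n : ℕ} {w : List (Fin 2)} : w ∈ words n ↔ w.length = n := by
  induction n generalizing w with
  | zero => simp [words]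
  | succ n ih =>
    cases w with
    | nil => simp [words]
    | cons i w => simp [words, ih]

/-- The words with length in the window `[m, m + L)`. -/
def window (m L : ℕ) : Finset (List (Fin 2)) := (range L).biUnion fun n => words (m + n)

lemma mem_window {m L : ℕ} {w : List (Fin 2)} :
    w ∈ window m L ↔ m ≤ w.length ∧ w.length < m + L := by
  simp only [window, mem_biUnion, mem_range, mem_words]
  constructor
  · rintro ⟨n, hn, hw⟩; omega
  · rintro ⟨h1, h2⟩; exact ⟨w.length - m, by omega, by omega⟩

/-- An unbordered marker word. -/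
def marker (L : ℕ) : List (Fin 2) := List.replicate L 0 ++ [1]

lemma not_prefix_shift {L : ℕ} {a b : List (Fin 2)} (hab : a.length < b.length)
    (hd : b.length ≤ a.length + L) : ¬(a ++ marker L <+: b ++ marker L) := by
  intro hp
  have h1 : a.length + L < (a ++ marker L).length := by simp [marker]
  have e := hp.getElem h1
  rw [List.getElem_append_right (by omega), List.getElem_append_right (by omega)] at e
  simp only [marker] at e
  rw [List.getElem_append_right (by simp), List.getElem_append_left (by simp; omega)] at e
  simp at e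

lemma not_prefix_shift' {L : ℕ} {a b : List (Fin 2)} (hab : a.length < b.length) :
    ¬(b ++ marker L <+: a ++ marker L) := fun hp => by
  have := hp.length_le
  simp at this
  omega

include h

lemma CuntzPair.marker_sandwich {L : ℕ} {a b : List (Fin 2)} (h1 : a.length ≤ b.length + L)
    (h2 : b.length ≤ a.length + L) :
    star (wordProd s (a ++ marker L)) * wordProd s (b ++ marker L) = if a = b then 1 else 0 := by
  split_ifs with hab
  · subst hab; exact h.star_wordProd_mul_self _
  · rcases lt_trichotomy a.length b.length with hl | hl | hl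
    · exact h.star_mul_eq_zero (not_prefix_shift hl h2) (not_prefix_shift' hl)
    · exact h.star_mul_eq_zero
        (fun hp => hab (List.append_cancel_right (hp.eq_of_length (by simp [hl]))))
        (fun hp => hab (List.append_cancel_right (hp.eq_of_length (by simp [hl]))).symm)
    · exact h.star_mul_eq_zero (not_prefix_shift' hl) (not_prefix_shift hl h1)

omit h

/-- The scalar entry cut out of `S μ S ν*`. -/
def entry (μ ν a b : List (Fin 2)) : ℂ :=
  if μ <+: a ∧ ν <+: b ∧ a.drop μ.length = b.drop ν.length then 1 else 0

include h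

lemma CuntzPair.star_mul_word {L : ℕ} {μ a : List (Fin 2)} (hμa : μ.length ≤ a.length) :
    star (wordProd s μ) * wordProd s (a ++ marker L) =
      if μ <+: a then wordProd s (a.drop μ.length ++ marker L) else 0 := by
  split_ifs with hp
  · obtain ⟨t, rfl⟩ := hp
    rw [List.drop_left, List.append_assoc, h.star_append_mul]
  · refine h.star_mul_eq_zero (fun hq => hp ?_) fun hq => ?_
    · exact List.prefix_of_prefix_length_le hq (List.prefix_append a (marker L)) hμa
    · have := hq.length_le
      simp [marker] at this
      omega

/-- Compressing a monomial by marked words gives scalars. -/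
lemma CuntzPair.compress {m L : ℕ} {μ ν a b : List (Fin 2)} (hμ : μ.length ≤ m) (hν : ν.length ≤ m)
    (ha : a ∈ window m L) (hb : b ∈ window m L) :
    star (wordProd s (a ++ marker (L + m))) * (wordProd s μ * star (wordProd s ν)) *
      wordProd s (b ++ marker (L + m)) = entry μ ν a b • 1 := by
  rw [mem_window] at ha hb
  have e1 : star (wordProd s (a ++ marker (L + m))) * wordProd s μ =
      if μ <+: a then star (wordProd s (a.drop μ.length ++ marker (L + m))) else 0 := by
    have := congrArg star (h.star_mul_word (L := L + m) (μ := μ) (a := a) (by omega))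
    rw [star_mul, star_star, apply_ite star, star_zero] at this
    exact this
  rw [← mul_assoc, e1, mul_assoc, h.star_mul_word (by omega), entry]
  split_ifs with h1 h2 h3 h3 h3 <;> simp_all [h.marker_sandwich]
  rw [h.marker_sandwich (by simp; omega) (by simp; omega), if_neg h3]

omit h

lemma sum_words_succ {M : Type*} [AddCommMonoid M] (n : ℕ) (f : List (Fin 2) → M) :
    ∑ w ∈ words (n + 1), f w = ∑ i, ∑ w ∈ words n, f (i :: w) := by
  rw [words, sum_image (fun q _ r _ hqr => Prod.ext (List.cons.inj hqr).1 (List.cons.inj hqr).2),
    sum_product]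

include h

lemma CuntzPair.sum_words (n : ℕ) : ∑ w ∈ words n, wordProd s w * star (wordProd s w) = 1 := by
  induction n with
  | zero => simp [words]
  | succ n ih =>
    rw [sum_words_succ, Fin.sum_univ_two]
    have : ∀ i, ∑ w ∈ words n, wordProd s (i :: w) * star (wordProd s (i :: w)) =
        s i * (∑ w ∈ words n, wordProd s w * star (wordProd s w)) * star (s i) := fun i => by
      rw [mul_sum, sum_mul]
      exact sum_congr rfl fun w _ => by rw [wordProd_cons, star_mul]; noncomm_ring
    rw [this, this, ih, mul_one, mul_one, h.total]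

lemma CuntzPair.sum_window (m L : ℕ) :
    ∑ w ∈ window m L, wordProd s w * star (wordProd s w) = (L : ℂ) • 1 := by
  rw [window, sum_biUnion]
  · simp [h.sum_words, Nat.cast_smul_eq_nsmul]
  · intro i _ j _ hij
    refine disjoint_left.2 fun w hw hw' => hij ?_
    rw [mem_words] at hw hw'
    omega

omit h in
/-- One row of the expansion. -/
lemma expand_row {m L : ℕ} (μ ν a : List (Fin 2)) :
    ∑ b ∈ window m L, entry μ ν a b • (wordProd s a * star (wordProd s b)) =
      if μ <+: a ∧ ν ++ a.drop μ.length ∈ window m L then
        wordProd s a * star (wordProd s (ν ++ a.drop μ.length)) else 0 := by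
  have hz : ∀ b, b ≠ ν ++ a.drop μ.length → entry μ ν a b = 0 := by
    intro b hb
    rw [entry, if_neg]
    rintro ⟨-, ⟨t, rfl⟩, ht⟩
    rw [List.drop_left] at ht
    exact hb (by rw [ht])
  split_ifs with hc
  · rw [sum_eq_single_of_mem _ hc.2 fun b _ hb => by rw [hz b hb, zero_smul]]
    simp [entry, hc.1]
  · refine sum_eq_zero fun b hb => ?_
    by_cases hb' : b = ν ++ a.drop μ.length
    · rw [entry, if_neg, zero_smul]
      exact fun hh => hc ⟨hh.1, hb' ▸ hb⟩
    · rw [hz b hb', zero_smul]

/-- One level of the expansion. -/
lemma CuntzPair.expand_level {μ ν : List (Fin 2)} {N : ℕ} (hN : μ.length ≤ N) :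
    ∑ a ∈ words N with μ <+: a,
        wordProd s a * star (wordProd s (ν ++ a.drop μ.length)) =
      wordProd s μ * star (wordProd s ν) := by
  have himg : ({a ∈ words N | μ <+: a}) = (words (N - μ.length)).image (μ ++ ·) := by
    ext a
    simp only [mem_filter, mem_words, mem_image]
    constructor
    · rintro ⟨hl, t, rfl⟩
      exact ⟨t, by simp at hl; omega, rfl⟩
    · rintro ⟨t, ht, rfl⟩
      exact ⟨by simp; omega, List.prefix_append _ _⟩
  rw [himg, sum_image fun x _ y _ hxy => List.append_cancel_left hxy]
  have : ∀ t, wordProd s (μ ++ t) * star (wordProd s (ν ++ (μ ++ t).drop μ.length)) =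
      wordProd s μ * (wordProd s t * star (wordProd s t)) * star (wordProd s ν) := fun t => by
    rw [List.drop_left, wordProd_append, wordProd_append, star_mul]; noncomm_ring
  simp only [this]
  rw [← sum_mul, ← mul_sum, h.sum_words, mul_one]

/-- Expanding the scalar matrix of a monomial recovers it on a window of levels. -/
lemma CuntzPair.expand {m L : ℕ} {μ ν : List (Fin 2)} (hμ : μ.length ≤ m) :
    ∑ a ∈ window m L, ∑ b ∈ window m L,
        entry μ ν a b • (wordProd s a * star (wordProd s b)) =
      ((L - (μ.length - ν.length) - (ν.length - μ.length) : ℕ) : ℂ) •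
        (wordProd s μ * star (wordProd s ν)) := by
  simp only [expand_row]
  nth_rewrite 1 [window]
  rw [sum_biUnion (fun i _ j _ hij => disjoint_left.2 fun w hw hw' => hij (by
    rw [mem_words] at hw hw'; omega))]
  have hlevel : ∀ n, ∑ a ∈ words (m + n), (if μ <+: a ∧ ν ++ a.drop μ.length ∈ window m L then
      wordProd s a * star (wordProd s (ν ++ a.drop μ.length)) else 0) =
      if μ.length ≤ ν.length + n ∧ ν.length + n < L + μ.length then
        wordProd s μ * star (wordProd s ν) else 0 := by
    intro n
    have hiff : ∀ a ∈ words (m + n), (μ <+: a ∧ ν ++ a.drop μ.length ∈ window m L) ↔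
        (μ.length ≤ ν.length + n ∧ ν.length + n < L + μ.length) ∧ μ <+: a := by
      intro a ha
      rw [mem_words] at ha
      rw [mem_window, List.length_append, List.length_drop, and_comm]
      constructor <;> rintro ⟨h1, h2⟩ <;> refine ⟨?_, h2⟩ <;> omega
    rw [sum_congr rfl fun a ha => if_congr (hiff a ha) rfl rfl]
    split_ifs with hn
    · simp only [hn, and_self, true_and]
      rw [← sum_filter]
      exact h.expand_level (by omega)
    · simp [hn]
  simp only [hlevel]
  rw [← sum_filter, sum_const, Nat.cast_smul_eq_nsmul]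
  congr 1
  rw [show ({n ∈ range L | μ.length ≤ ν.length + n ∧ ν.length + n < L + μ.length}) =
      Ico (μ.length - ν.length) (L - (ν.length - μ.length)) by
    ext n; simp only [mem_filter, mem_range, mem_Ico]; omega, Nat.card_Ico]
  omega

/-- The scalar matrix of `x`, by compressing with marked words. -/
def compressEntry (s : Fin 2 → B) (N : ℕ) (a b : List (Fin 2)) (x : B) : B :=
  star (wordProd s (a ++ marker N)) * x * wordProd s (b ++ marker N)

/-- The row isometry from the ambient algebra into the window corner. -/
def rowIso (s : Fin 2 → B) (m L : ℕ) : B :=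
  (Real.sqrt L : ℂ)⁻¹ •
    ∑ a ∈ window m L, wordProd s (a ++ marker (L + m)) * star (wordProd s a)

/-- The corner projection. -/
def cornerProj (s : Fin 2 → B) (m L : ℕ) : B :=
  ∑ a ∈ window m L, wordProd s (a ++ marker (L + m)) * star (wordProd s (a ++ marker (L + m)))

lemma CuntzPair.window_orth {m L : ℕ} {a b : List (Fin 2)} (ha : a ∈ window m L)
    (hb : b ∈ window m L) :
    star (wordProd s (a ++ marker (L + m))) * wordProd s (b ++ marker (L + m)) =
      if a = b then 1 else 0 := by
  rw [mem_window] at ha hb
  exact h.marker_sandwich (by omega) (by omega)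

omit h in
lemma star_rowIso (m L : ℕ) : star (rowIso s m L) =
    (Real.sqrt L : ℂ)⁻¹ •
      ∑ a ∈ window m L, wordProd s a * star (wordProd s (a ++ marker (L + m))) := by
  simp [rowIso, star_sum]

omit h in
lemma rowIso_sandwich (m L : ℕ) (x : B) :
    star (rowIso s m L) * x * rowIso s m L = (L : ℂ)⁻¹ •
      ∑ a ∈ window m L, ∑ b ∈ window m L,
        wordProd s a * compressEntry s (L + m) a b x * star (wordProd s b) := by
  rw [star_rowIso, rowIso, smul_mul_assoc, smul_mul_assoc, mul_smul_comm, smul_smul,
    ← mul_inv, ← Complex.ofReal_mul, Real.mul_self_sqrt (Nat.cast_nonneg L), Complex.ofReal_natCast,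
    sum_mul, sum_mul]
  refine congrArg _ (sum_congr rfl fun a _ => ?_)
  rw [mul_sum]
  exact sum_congr rfl fun b _ => by simp [compressEntry]; noncomm_ring

lemma CuntzPair.rowIso_isometry (m : ℕ) {L : ℕ} (hL : 0 < L) :
    star (rowIso s m L) * rowIso s m L = 1 := by
  have := rowIso_sandwich (s := s) m L 1
  rw [mul_one] at this
  rw [this]
  have e : ∀ a ∈ window m L, ∑ b ∈ window m L,
      wordProd s a * compressEntry s (L + m) a b 1 * star (wordProd s b) =
        wordProd s a * star (wordProd s a) := by
    intro a ha
    rw [sum_eq_single_of_mem a ha fun b hb hne => by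
      simp [compressEntry, h.window_orth ha hb, hne.symm]]
    simp [compressEntry, h.window_orth ha ha]
  rw [sum_congr rfl e, h.sum_window, smul_smul,
    inv_mul_cancel₀ (Nat.cast_ne_zero.2 hL.ne'), one_smul]

/-- The monomial is recovered from its scalar matrix up to the Fejér factor. -/
lemma CuntzPair.rowIso_monomial {m L : ℕ} {μ ν : List (Fin 2)} (hμ : μ.length ≤ m)
    (hν : ν.length ≤ m) :
    star (rowIso s m L) * (wordProd s μ * star (wordProd s ν)) * rowIso s m L =
      ((L : ℂ)⁻¹ * ((L - (μ.length - ν.length) - (ν.length - μ.length) : ℕ) : ℂ)) •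
        (wordProd s μ * star (wordProd s ν)) := by
  rw [rowIso_sandwich, ← smul_smul, ← h.expand hμ]
  refine congrArg _ (sum_congr rfl fun a ha => sum_congr rfl fun b hb => ?_)
  rw [compressEntry, h.compress hμ hν ha hb, mul_smul_comm, mul_one, smul_mul_assoc]

lemma CuntzPair.norm_monomial_le (μ ν : List (Fin 2)) :
    ‖wordProd s μ * star (wordProd s ν)‖ ≤ 1 := by
  refine (norm_mul_le _ _).trans ?_
  rw [norm_star]
  exact mul_le_one₀ (h.norm_wordProd_le μ) (norm_nonneg _) (h.norm_wordProd_le ν)

omit h

/-- The monomials of bounded length. -/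
def lowSpan (s : Fin 2 → B) (m : ℕ) : Submodule ℂ B :=
  Submodule.span ℂ {x | ∃ μ ν : List (Fin 2), μ.length ≤ m ∧ ν.length ≤ m ∧
    wordProd s μ * star (wordProd s ν) = x}

include h

/-- **Matrix factorisation.** Bounded-degree polynomials are cut to scalar matrices by an
orthogonal family of isometries and recovered, up to `ε`, by a single isometry. -/
theorem CuntzPair.factor {m : ℕ} {x : B} (hx : x ∈ lowSpan s m) :
    (∀ L, ∀ a ∈ window m L, ∀ b ∈ window m L,
      ∃ c : ℂ, compressEntry s (L + m) a b x = c • 1) ∧
    Filter.Tendsto (fun L => star (rowIso s m L) * x * rowIso s m L) Filter.atTop (𝓝 x) := by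
  induction hx using Submodule.span_induction with
  | mem x hx =>
    obtain ⟨μ, ν, hμ, hν, rfl⟩ := hx
    refine ⟨fun L a ha b hb => ⟨_, h.compress hμ hν ha hb⟩, ?_⟩
    simp only [h.rowIso_monomial hμ hν]
    set k : ℕ := (μ.length - ν.length) + (ν.length - μ.length)
    have hlim : Filter.Tendsto
        (fun L : ℕ => (L : ℂ)⁻¹ * ((L - (μ.length - ν.length) - (ν.length - μ.length) : ℕ) : ℂ))
        Filter.atTop (𝓝 1) := by
      have h0 : Filter.Tendsto (fun L : ℕ => 1 - (k : ℂ) * (L : ℂ)⁻¹) Filter.atTop (𝓝 1) := by
        simpa using ((tendsto_inv_atTop_nhds_zero_nat (𝕜 := ℂ)).const_mul (k : ℂ)).const_sub 1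
      refine h0.congr' ?_
      filter_upwards [Filter.eventually_ge_atTop k, Filter.eventually_gt_atTop 0] with L hL hL0
      rw [Nat.sub_sub, Nat.cast_sub hL]
      have : (L : ℂ) ≠ 0 := Nat.cast_ne_zero.2 hL0.ne'
      field_simp
    simpa using hlim.smul_const (wordProd s μ * star (wordProd s ν))
  | zero =>
    exact ⟨fun L a _ b _ => ⟨0, by simp [compressEntry]⟩, by simp⟩
  | add x y _ _ hx hy =>
    refine ⟨fun L a ha b hb => ?_, ?_⟩
    · obtain ⟨c, hc⟩ := hx.1 L a ha b hb
      obtain ⟨d, hd⟩ := hy.1 L a ha b hb
      refine ⟨c + d, ?_⟩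
      simp only [compressEntry, mul_add, add_mul] at *
      rw [hc, hd, add_smul]
    · simpa [mul_add, add_mul] using hx.2.add hy.2
  | smul c x _ hx =>
    refine ⟨fun L a ha b hb => ?_, ?_⟩
    · obtain ⟨d, hd⟩ := hx.1 L a ha b hb
      refine ⟨c * d, ?_⟩
      simp only [compressEntry] at *
      rw [mul_smul_comm, smul_mul_assoc, hd, smul_smul]
    · simpa using hx.2.const_smul c

omit h in
lemma lowSpan_mono {m m' : ℕ} (hm : m ≤ m') : lowSpan s m ≤ lowSpan s m' :=
  Submodule.span_mono fun _ ⟨μ, ν, hμ, hν, he⟩ => ⟨μ, ν, hμ.trans hm, hν.trans hm, he⟩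

lemma CuntzPair.monomial_mul (μ ν μ' ν' : List (Fin 2)) :
    wordProd s μ * star (wordProd s ν) * (wordProd s μ' * star (wordProd s ν')) ∈
      lowSpan s (μ.length + ν.length + μ'.length + ν'.length) := by
  rw [show wordProd s μ * star (wordProd s ν) * (wordProd s μ' * star (wordProd s ν')) =
    wordProd s μ * (star (wordProd s ν) * wordProd s μ') * star (wordProd s ν') by noncomm_ring]
  by_cases h1 : ν <+: μ'
  · obtain ⟨t, rfl⟩ := h1
    rw [h.star_append_mul, ← wordProd_append]
    exact Submodule.subset_span ⟨μ ++ t, ν', by simp; omega, by omega, rfl⟩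
  · by_cases h2 : μ' <+: ν
    · obtain ⟨t, rfl⟩ := h2
      have := congrArg star (h.star_append_mul μ' t)
      rw [star_mul, star_star] at this
      rw [this, mul_assoc, ← star_mul, ← wordProd_append]
      exact Submodule.subset_span ⟨μ, ν' ++ t, by omega, by simp; omega, rfl⟩
    · simp [h.star_mul_eq_zero h1 h2]

end Vale.Agent.P083.O2
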