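import Vale.Agent.P083.O2.Universal

/-!
The universal property of a generated Cuntz pair and the matrix factorisation of finite sets.
-/

noncomputable section

open Finset Filter
open scoped Topology ComplexOrder

namespace Vale.Agent.P083.O2

variable {B : Type*} [CStarAlgebra B] {C : Type*} [CStarAlgebra C] {s : Fin 2 → B} {t : Fin 2 → C}

/-- Formal monomial. -/
def mono (μ ν : List (Fin 2)) : Poly := Finsupp.single (μ, ν) 1

@[simp] lemma evalPoly_mono (s : Fin 2 → B) (μ ν : List (Fin 2)) :
    evalPoly s (mono μ ν) = wordProd s μ * star (wordProd s ν) := by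
  simp [evalPoly, mono]

lemma evalPoly_eq_zero_iff [Nontrivial B] [Nontrivial C] (h : CuntzPair s) (h' : CuntzPair t)
    (P : Poly) : evalPoly s P = 0 ↔ evalPoly t P = 0 := by
  have h1 := h.norm_evalPoly_le h' P
  have h2 := h'.norm_evalPoly_le h P
  rw [← norm_eq_zero, ← norm_eq_zero (a := evalPoly t P), le_antisymm h1 h2]

/-- The normal form of a product of two formal monomials. -/
def mulMono (μ ν μ' ν' : List (Fin 2)) : Poly :=
  if ν <+: μ' then mono (μ ++ μ'.drop ν.length) ν'
  else if μ' <+: ν then mono μ (ν' ++ ν.drop μ'.length) else 0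

lemma CuntzPair.eval_mul_mono (h : CuntzPair s) (μ ν μ' ν' : List (Fin 2)) :
    evalPoly s (mono μ ν) * evalPoly s (mono μ' ν') = evalPoly s (mulMono μ ν μ' ν') := by
  unfold mulMono
  split_ifs with h1 h2
  · obtain ⟨r, rfl⟩ := h1
    simp only [evalPoly_mono, List.drop_left]
    rw [mul_assoc, ← mul_assoc (star (wordProd s ν)), h.star_append_mul, wordProd_append,
      mul_assoc]
  · obtain ⟨r, rfl⟩ := h2
    simp only [evalPoly_mono, List.drop_left]
    have := congrArg star (h.star_append_mul μ' r)
    rw [star_mul, star_star] at this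
    rw [mul_assoc, ← mul_assoc (star (wordProd s (μ' ++ r))), this,
      wordProd_append (s := s) ν' r, star_mul]
  · simp only [evalPoly_mono, map_zero]
    rw [mul_assoc, ← mul_assoc (star (wordProd s ν)), h.star_mul_eq_zero h1 h2]
    simp

/-- The range of evaluation, as a `*`-subalgebra. -/
def CuntzPair.polyAlg (h : CuntzPair s) : StarSubalgebra ℂ B where
  carrier := LinearMap.range (evalPoly s)
  mul_mem' := by
    rintro _ _ ⟨P, rfl⟩ ⟨Q, rfl⟩
    induction P using Finsupp.induction_linear with
    | zero => exact ⟨0, by simp⟩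
    | add P P' hP hP' =>
      obtain ⟨R, hR⟩ := hP
      obtain ⟨R', hR'⟩ := hP'
      exact ⟨R + R', by rw [map_add, map_add, add_mul, hR, hR']⟩
    | single q c =>
      induction Q using Finsupp.induction_linear with
      | zero => exact ⟨0, by simp⟩
      | add Q Q' hQ hQ' =>
        obtain ⟨R, hR⟩ := hQ
        obtain ⟨R', hR'⟩ := hQ'
        exact ⟨R + R', by rw [map_add, map_add, mul_add, hR, hR']⟩
      | single r d =>
        refine ⟨(c * d) • mulMono q.1 q.2 r.1 r.2, ?_⟩
        rw [map_smul, ← h.eval_mul_mono]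
        simp [evalPoly, mono, smul_smul]
        rw [mul_comm c d]
  add_mem' := fun {a b} ha hb => (LinearMap.range (evalPoly s)).add_mem ha hb
  algebraMap_mem' c := ⟨c • mono [] [], by simp [Algebra.algebraMap_eq_smul_one]⟩
  star_mem' := by
    rintro _ ⟨P, rfl⟩
    refine ⟨P.sum fun q c => star c • mono q.2 q.1, ?_⟩
    rw [map_finsuppSum, evalPoly, Finsupp.linearCombination_apply, Finsupp.sum, Finsupp.sum,
      star_sum]
    refine sum_congr rfl fun q _ => ?_
    simp [mono, Finsupp.linearCombination_single]

lemma CuntzPair.mem_polyAlg (h : CuntzPair s) (i : Fin 2) : s i ∈ h.polyAlg :=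
  ⟨mono [i] [], by simp⟩

lemma CuntzPair.adjoin_le (h : CuntzPair s) : StarAlgebra.adjoin ℂ (Set.range s) ≤ h.polyAlg :=
  StarAlgebra.adjoin_le (by rintro _ ⟨i, rfl⟩; exact h.mem_polyAlg i)

/-- `s` generates a dense `*`-subalgebra. -/
def Generates (s : Fin 2 → B) : Prop :=
  closure ((StarAlgebra.adjoin ℂ (Set.range s) : StarSubalgebra ℂ B) : Set B) = Set.univ

lemma CuntzPair.denseRange (h : CuntzPair s) (hg : Generates s) : DenseRange (evalPoly s) := by
  intro x
  have hx : x ∈ closure ((StarAlgebra.adjoin ℂ (Set.range s) : StarSubalgebra ℂ B) : Set B) := by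
    rw [hg]; trivial
  refine closure_mono (fun y hy => ?_) hx
  obtain ⟨P, hP⟩ := h.adjoin_le hy
  exact ⟨P, hP⟩

/-- **Universal property**: a generated pair maps to every pair. -/
theorem CuntzPair.exists_starAlgHom [Nontrivial B] [Nontrivial C] (h : CuntzPair s)
    (h' : CuntzPair t) (hg : Generates s) : ∃ Φ : B →⋆ₐ[ℂ] C, ∀ i, Φ (s i) = t i := by
  have hd := h.denseRange hg
  have hbound : ∀ P, ‖evalPoly t P‖ ≤ 1 * ‖evalPoly s P‖ := fun P => by
    rw [one_mul]; exact h'.norm_evalPoly_le h P
  set φ : B →L[ℂ] C := (evalPoly t).extendOfNorm (evalPoly s)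
  have hφ : ∀ P, φ (evalPoly s P) = evalPoly t P :=
    LinearMap.extendOfNorm_eq hd ⟨1, hbound⟩
  have hmul : ∀ x y, φ (x * y) = φ x * φ y := by
    intro x y
    refine hd.induction_on₂ (p := fun x y => φ (x * y) = φ x * φ y)
      (isClosed_eq (by fun_prop) (by fun_prop)) (fun P Q => ?_) x y
    induction P using Finsupp.induction_linear with
    | zero => simp
    | add P P' hP hP' => simp only [map_add, add_mul, hP, hP']
    | single q c =>
      induction Q using Finsupp.induction_linear with
      | zero => simp
      | add Q Q' hQ hQ' => simp only [map_add, mul_add, hQ, hQ']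
      | single r d =>
        have e1 : Finsupp.single q c = c • mono q.1 q.2 := by simp [mono]
        have e2 : Finsupp.single r d = d • mono r.1 r.2 := by simp [mono]
        simp only [e1, e2, map_smul, smul_mul_smul_comm, hφ]
        rw [h.eval_mul_mono, hφ, ← h'.eval_mul_mono]
  have hone : φ 1 = 1 := by
    have := hφ (mono [] [])
    simpa using this
  have hstar : ∀ x, φ (star x) = star (φ x) := by
    intro x
    refine hd.induction_on (p := fun x => φ (star x) = star (φ x)) x
      (isClosed_eq (by fun_prop) (by fun_prop)) fun P => ?_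
    induction P using Finsupp.induction_linear with
    | zero => simp
    | add P P' hP hP' => simp only [map_add, star_add, hP, hP']
    | single q c =>
      have e : ∀ μ ν : List (Fin 2), star (evalPoly s (mono μ ν)) = evalPoly s (mono ν μ) :=
        fun μ ν => by simp
      have : Finsupp.single q c = c • mono q.1 q.2 := by simp [mono]
      rw [this]
      simp only [map_smul, star_smul, e, hφ]
      simp
  refine ⟨{ toFun := φ
            map_one' := hone
            map_mul' := hmul
            map_zero' := map_zero φ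
            map_add' := map_add φ
            commutes' := fun c => by
              simp [Algebra.algebraMap_eq_smul_one, hone]
            map_star' := hstar }, fun i => ?_⟩
  have := hφ (mono [i] [])
  simpa using this

/-- The universal map is isometric, hence injective. -/
theorem CuntzPair.norm_map_of_generates [Nontrivial B] [Nontrivial C] (h : CuntzPair s)
    (h' : CuntzPair t) (hg : Generates s) (Φ : B →⋆ₐ[ℂ] C) (hΦ : ∀ i, Φ (s i) = t i) (x : B) :
    ‖Φ x‖ = ‖x‖ := by
  have hw : ∀ w : List (Fin 2), Φ (wordProd s w) = wordProd t w := fun w => by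
    induction w with
    | nil => simp
    | cons i w ih => simp [map_mul, hΦ, ih]
  have hc : Continuous Φ :=
    AddMonoidHomClass.continuous_of_bound Φ 1 fun x => by
      simpa using NonUnitalStarAlgHom.norm_apply_le Φ x
  refine (h.denseRange hg).induction_on (p := fun x => ‖Φ x‖ = ‖x‖) x
    (isClosed_eq hc.norm continuous_norm) fun P => ?_
  have hP : Φ (evalPoly s P) = evalPoly t P := by
    simp [evalPoly, Finsupp.linearCombination_apply, Finsupp.sum, map_sum, hw, map_star]
  rw [hP]
  exact le_antisymm (h'.norm_evalPoly_le h P) (h.norm_evalPoly_le h' P)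

/-- **Matrix factorisation of finite sets** (complete positive approximation). -/
theorem CuntzPair.exists_factor [Nontrivial B] (h : CuntzPair s) (hg : Generates s)
    (F : Finset B) {ε : ℝ} (hε : 0 < ε) :
    ∃ (P : B → Poly) (m L : ℕ), 0 < L ∧ ∀ x ∈ F, ‖evalPoly s (P x) - x‖ < ε ∧
      cornerProj s m L * evalPoly s (P x) * cornerProj s m L =
        cornerHom h m L (polyMatrix (P x) m L) ∧
      ‖star (rowIso s m L) * cornerHom h m L (polyMatrix (P x) m L) * rowIso s m L - x‖ < ε := by
  have hex : ∀ x : B, ∃ P, ‖evalPoly s P - x‖ < ε / 2 := fun x => by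
    obtain ⟨P, hP⟩ := (h.denseRange hg).exists_dist_lt x (half_pos hε)
    exact ⟨P, by rwa [dist_comm, dist_eq_norm] at hP⟩
  choose P hP using hex
  set m := F.sup fun x => polyDeg (P x)
  have hm : ∀ x ∈ F, polyDeg (P x) ≤ m := fun x hx => le_sup (f := fun x => polyDeg (P x)) hx
  have hev : ∀ᶠ L in atTop, ∀ x ∈ F, ‖star (rowIso s m L) *
      cornerHom h m L (polyMatrix (P x) m L) * rowIso s m L - evalPoly s (P x)‖ < ε / 2 :=
    (eventually_all_finset F).2 fun x hx =>
      ((tendsto_iff_norm_sub_tendsto_zero.1 (h.tendsto_matrix (hm x hx))).eventually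
        (Iio_mem_nhds (half_pos hε)))
  obtain ⟨L, hL, hL0⟩ := (hev.and (eventually_gt_atTop 0)).exists
  refine ⟨P, m, L, hL0, fun x hx => ⟨(hP x).trans (by linarith), h.cornerProj_sandwich (hm x hx), ?_⟩⟩
  have := norm_sub_le_norm_sub_add_norm_sub
    (star (rowIso s m L) * cornerHom h m L (polyMatrix (P x) m L) * rowIso s m L)
    (evalPoly s (P x)) x
  linarith [hL x hx, hP x]

end Vale.Agent.P083.O2
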