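import Vale.Agent.P083.O2.Approx

/-!
Consequences of the matrix factorisation: every polynomial has the same norm in every algebra
with a Cuntz pair, and the closed algebra generated by a pair is universal.
-/

noncomputable section

open Finset Filter
open scoped Topology ComplexOrder

namespace Vale.Agent.P083.O2

variable {B : Type*} [CStarAlgebra B] {C : Type*} [CStarAlgebra C] {s : Fin 2 → B} {t : Fin 2 → C}

/-- Formal `*`-polynomials in two isometries, in normal form. -/
abbrev Poly := List (Fin 2) × List (Fin 2) →₀ ℂ

/-- Evaluation of a formal polynomial. -/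
def evalPoly (s : Fin 2 → B) : Poly →ₗ[ℂ] B :=
  Finsupp.linearCombination ℂ fun q => wordProd s q.1 * star (wordProd s q.2)

/-- The degree of a formal polynomial. -/
def polyDeg (P : Poly) : ℕ := P.support.sup fun q => max q.1.length q.2.length

lemma evalPoly_mem_lowSpan (s : Fin 2 → B) (P : Poly) : evalPoly s P ∈ lowSpan s (polyDeg P) := by
  rw [evalPoly, Finsupp.linearCombination_apply]
  refine Submodule.sum_mem _ fun q hq => Submodule.smul_mem _ _ (Submodule.subset_span ?_)
  have h := Finset.le_sup (f := fun q : List (Fin 2) × List (Fin 2) =>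
    max q.1.length q.2.length) hq
  exact ⟨q.1, q.2, le_trans (le_max_left _ _) h, le_trans (le_max_right _ _) h, rfl⟩

/-- The scalar matrix entry of a formal polynomial. -/
def polyEntry (P : Poly) (a b : List (Fin 2)) : ℂ := P.sum fun q c => c * entry q.1 q.2 a b

/-- The scalar matrix of a formal polynomial on a window. -/
def polyMatrix (P : Poly) (m L : ℕ) : CStarMatrix (window m L) (window m L) ℂ :=
  CStarMatrix.ofMatrix fun a b => polyEntry P a b

lemma CuntzPair.compressEntry_evalPoly (h : CuntzPair s) {P : Poly} {m L : ℕ}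
    (hm : polyDeg P ≤ m) {a b : List (Fin 2)} (ha : a ∈ window m L) (hb : b ∈ window m L) :
    compressEntry s (L + m) a b (evalPoly s P) = polyEntry P a b • 1 := by
  simp only [compressEntry, evalPoly, Finsupp.linearCombination_apply, polyEntry, Finsupp.sum,
    mul_sum, sum_mul, sum_smul]
  refine sum_congr rfl fun q hq => ?_
  have hd := Finset.le_sup (f := fun q : List (Fin 2) × List (Fin 2) =>
    max q.1.length q.2.length) hq
  rw [mul_smul_comm, smul_mul_assoc, h.compress
    ((le_max_left _ _).trans (hd.trans hm)) ((le_max_right _ _).trans (hd.trans hm)) ha hb,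
    smul_smul]

/-- The matrix-unit embedding of scalar matrices onto a window corner. -/
def cornerHom (h : CuntzPair s) (m L : ℕ) :
    CStarMatrix (window m L) (window m L) ℂ →⋆ₙₐ[ℂ] B where
  toFun M := ∑ a : window m L, ∑ b : window m L,
    M a b • (wordProd s (a.1 ++ marker (L + m)) * star (wordProd s (b.1 ++ marker (L + m))))
  map_smul' c M := by simp [smul_sum, smul_smul]
  map_zero' := by simp
  map_add' M N := by simp [add_smul, sum_add_distrib]
  map_mul' M N := by
    symm
    rw [sum_mul]
    refine sum_congr rfl fun a _ => ?_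
    rw [sum_mul]
    refine (sum_congr rfl fun b _ => show _ = ∑ d : window m L, (M a b * N b d) •
        (wordProd s (a.1 ++ marker (L + m)) * star (wordProd s (d.1 ++ marker (L + m)))) from ?_).trans ?_
    · rw [mul_sum, sum_eq_single_of_mem b (mem_univ b) fun c _ hcb => ?_, mul_sum]
      · refine sum_congr rfl fun d _ => ?_
        rw [smul_mul_smul_comm, show ∀ x y z w : B, x * y * (z * w) = x * (y * z) * w from
          fun x y z w => by noncomm_ring, h.window_orth b.2 b.2, if_pos rfl, mul_one]
      · rw [mul_sum]
        refine sum_eq_zero fun d _ => ?_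
        rw [smul_mul_smul_comm, show ∀ x y z w : B, x * y * (z * w) = x * (y * z) * w from
          fun x y z w => by noncomm_ring, h.window_orth b.2 c.2, if_neg]
        · simp
        · exact fun hh => hcb (Subtype.ext hh.symm)
    · rw [sum_comm]
      refine sum_congr rfl fun d _ => ?_
      rw [CStarMatrix.mul_apply, sum_smul]
  map_star' M := by
    simp only [star_sum, star_smul, star_mul, star_star, CStarMatrix.star_apply]
    rw [sum_comm]

lemma CuntzPair.cornerHom_apply (h : CuntzPair s) (m L : ℕ)
    (M : CStarMatrix (window m L) (window m L) ℂ) :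
    cornerHom h m L M = ∑ a : window m L, ∑ b : window m L,
      M a b • (wordProd s (a.1 ++ marker (L + m)) * star (wordProd s (b.1 ++ marker (L + m)))) :=
  rfl

lemma CuntzPair.cornerHom_injective [Nontrivial B] (h : CuntzPair s) (m L : ℕ) :
    Function.Injective (cornerHom h m L) := by
  rw [injective_iff_map_eq_zero]
  intro M hM
  ext a b
  have h2 := congrArg (fun x => star (wordProd s (a.1 ++ marker (L + m))) * x *
    wordProd s (b.1 ++ marker (L + m))) hM
  simp only [mul_zero, zero_mul] at h2
  rw [h.cornerHom_apply, mul_sum, sum_mul,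
    sum_eq_single_of_mem a (mem_univ a) fun c _ hc => ?_, mul_sum, sum_mul,
    sum_eq_single_of_mem b (mem_univ b) fun d _ hd => ?_] at h2
  · rw [mul_smul_comm, ← mul_assoc, h.window_orth a.2 a.2, if_pos rfl, one_mul, smul_mul_assoc,
      h.window_orth b.2 b.2, if_pos rfl] at h2
    simpa using h2
  · rw [mul_smul_comm, smul_mul_assoc, mul_assoc, mul_assoc, h.window_orth d.2 b.2, if_neg]
    · simp
    · exact fun hh => hd (Subtype.ext hh)
  · rw [mul_sum, sum_mul]
    refine sum_eq_zero fun d _ => ?_
    rw [mul_smul_comm, ← mul_assoc, h.window_orth a.2 c.2, if_neg]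
    · simp
    · exact fun hh => hc (Subtype.ext hh.symm)

/-- The compressed polynomial is the image of its scalar matrix. -/
lemma CuntzPair.cornerProj_sandwich (h : CuntzPair s) {P : Poly} {m L : ℕ} (hm : polyDeg P ≤ m) :
    cornerProj s m L * evalPoly s P * cornerProj s m L =
      cornerHom h m L (polyMatrix P m L) := by
  rw [h.cornerHom_apply, cornerProj, ← sum_coe_sort (window m L), sum_mul, sum_mul]
  refine sum_congr rfl fun a _ => ?_
  rw [mul_sum]
  refine sum_congr rfl fun b _ => ?_
  have := h.compressEntry_evalPoly hm a.2 b.2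
  rw [compressEntry] at this
  calc _ = wordProd s (a.1 ++ marker (L + m)) *
        (star (wordProd s (a.1 ++ marker (L + m))) * evalPoly s P *
          wordProd s (b.1 ++ marker (L + m))) * star (wordProd s (b.1 ++ marker (L + m))) := by
        noncomm_ring
    _ = _ := by
        rw [this, mul_smul_comm, mul_one, smul_mul_assoc]
        rfl

lemma CuntzPair.cornerProj_mul_rowIso (h : CuntzPair s) (m L : ℕ) :
    cornerProj s m L * rowIso s m L = rowIso s m L := by
  rw [cornerProj, rowIso, mul_smul_comm, sum_mul]
  refine congrArg _ (sum_congr rfl fun a ha => ?_)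
  rw [mul_sum, sum_eq_single_of_mem a ha fun b hb hne => ?_]
  · rw [mul_assoc, ← mul_assoc (star (wordProd s (a ++ marker (L + m)))),
      h.star_wordProd_mul_self, one_mul]
  · rw [mul_assoc, ← mul_assoc (star (wordProd s (a ++ marker (L + m)))),
      h.window_orth ha hb, if_neg hne.symm]
    simp

lemma CuntzPair.cornerProj_star_mul (h : CuntzPair s) (m L : ℕ) :
    star (cornerProj s m L) * cornerProj s m L = cornerProj s m L := by
  rw [cornerProj, star_sum, sum_mul]
  refine sum_congr rfl fun a ha => ?_
  rw [mul_sum, sum_eq_single_of_mem a ha fun b hb hne => ?_]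
  · rw [star_mul, star_star, mul_assoc, ← mul_assoc (star (wordProd s (a ++ marker (L + m)))),
      h.star_wordProd_mul_self, one_mul]
  · rw [star_mul, star_star, mul_assoc, ← mul_assoc (star (wordProd s (a ++ marker (L + m)))),
      h.window_orth ha hb, if_neg hne.symm]
    simp

lemma norm_le_one_of_star_mul_self_eq {x : B} (hx : star x * x = x) : ‖x‖ ≤ 1 := by
  have h1 := CStarRing.norm_star_mul_self (x := x)
  rw [hx] at h1
  nlinarith [norm_nonneg x]

lemma CuntzPair.norm_cornerHom [Nontrivial B] (h : CuntzPair s) (m L : ℕ)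
    (M : CStarMatrix (window m L) (window m L) ℂ) : ‖cornerHom h m L M‖ = ‖M‖ :=
  NonUnitalStarAlgHom.norm_map _ (h.cornerHom_injective m L) M

/-- The scalar matrices of a polynomial have norm at most its norm in any algebra. -/
lemma CuntzPair.norm_polyMatrix_le [Nontrivial B] (h : CuntzPair s) {P : Poly} {m : ℕ}
    (hm : polyDeg P ≤ m) (L : ℕ) : ‖polyMatrix P m L‖ ≤ ‖evalPoly s P‖ := by
  rw [← h.norm_cornerHom, ← h.cornerProj_sandwich hm]
  have hp := norm_le_one_of_star_mul_self_eq (h.cornerProj_star_mul m L)
  calc _ ≤ ‖cornerProj s m L * evalPoly s P‖ * ‖cornerProj s m L‖ := norm_mul_le _ _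
    _ ≤ ‖cornerProj s m L * evalPoly s P‖ * 1 := mul_le_mul_of_nonneg_left hp (norm_nonneg _)
    _ ≤ ‖cornerProj s m L‖ * ‖evalPoly s P‖ := by rw [mul_one]; exact norm_mul_le _ _
    _ ≤ _ := mul_le_of_le_one_left (norm_nonneg _) hp

/-- Recovering a polynomial from its scalar matrix. -/
lemma CuntzPair.tendsto_matrix (h : CuntzPair s) {P : Poly} {m : ℕ} (hm : polyDeg P ≤ m) :
    Tendsto (fun L => star (rowIso s m L) * cornerHom h m L (polyMatrix P m L) * rowIso s m L)
      atTop (𝓝 (evalPoly s P)) := by
  refine (h.factor (lowSpan_mono hm (evalPoly_mem_lowSpan s P))).2.congr fun L => ?_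
  have hp := h.cornerProj_mul_rowIso m L
  have hsa : star (cornerProj s m L) = cornerProj s m L := by
    simp [cornerProj, star_sum]
  have hq : star (rowIso s m L) * cornerProj s m L = star (rowIso s m L) := by
    conv_rhs => rw [← hp, star_mul, hsa]
  rw [← h.cornerProj_sandwich hm]
  calc _ = (star (rowIso s m L) * cornerProj s m L) * evalPoly s P *
        (cornerProj s m L * rowIso s m L) := by rw [hp, hq]
    _ = _ := by noncomm_ring

/-- **Uniqueness.** A polynomial has the same norm for every Cuntz pair. -/
theorem CuntzPair.norm_evalPoly_le [Nontrivial B] [Nontrivial C] (h : CuntzPair s)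
    (h' : CuntzPair t) (P : Poly) : ‖evalPoly s P‖ ≤ ‖evalPoly t P‖ := by
  refine le_of_tendsto (h.tendsto_matrix (le_refl (polyDeg P))).norm
    (eventually_gt_atTop 0 |>.mono fun L hL => ?_)
  have hw : ‖rowIso s (polyDeg P) L‖ ≤ 1 := by
    have h1 := CStarRing.norm_star_mul_self (x := rowIso s (polyDeg P) L)
    rw [h.rowIso_isometry _ hL, norm_one] at h1
    nlinarith [norm_nonneg (rowIso s (polyDeg P) L)]
  calc _ ≤ ‖star (rowIso s (polyDeg P) L)‖ * ‖cornerHom h (polyDeg P) L (polyMatrix P _ L)‖ *
        ‖rowIso s (polyDeg P) L‖ :=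
        (norm_mul_le _ _).trans (mul_le_mul_of_nonneg_right (norm_mul_le _ _) (norm_nonneg _))
    _ ≤ 1 * ‖cornerHom h (polyDeg P) L (polyMatrix P _ L)‖ * 1 := by
        gcongr
        rwa [norm_star]
    _ ≤ _ := by
        rw [one_mul, mul_one, h.norm_cornerHom]
        exact h'.norm_polyMatrix_le (le_refl _) L

end Vale.Agent.P083.O2
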